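import Vale.Agent.Lib.P302.helper74.Level2
import Vale.Agent.Lib.P302.Bridge

/-!
A feasible solution of the configuration LP for the instance `lev2T` (capacity `240000`):
`45` configurations with integer weights, to be divided by `2304`; the weights sum to `45617`.
-/

namespace Vale.Agent.Lib.P302.helper74

/-- The configurations (as lists of item lengths) with their weights (numerators over `2304`). -/
def cert2 : List (List ℕ × ℕ) :=
  [([80258, 80230, 79512], 872), ([87120, 87120, 65680], 1152), ([80005, 80003, 79992], 1728),
   ([80178, 80178, 79642], 1152), ([80238, 80230, 79532], 1152), ([80244, 80244, 79512], 1152),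
   ([90320, 85760, 63920], 128), ([80004, 80004, 79992], 576), ([87840, 85760, 65680], 384),
   ([89360, 89360, 61280], 1152), ([80258, 80258, 74800], 332), ([80256, 79870, 79870], 1640),
   ([80196, 80144, 79654], 1024), ([80258, 80005, 79654], 1280), ([80196, 80196, 79598], 640),
   ([80000, 80000, 80000], 1248), ([80190, 80174, 79636], 1536), ([80256, 80230, 79512], 280),
   ([80004, 79998, 79998], 1152), ([87600, 87600, 63920], 64), ([80234, 80234, 79532], 1152),
   ([87280, 86960, 65680], 768), ([90240, 89200, 60480], 1152), ([80256, 80005, 79642], 384),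
   ([80005, 80005, 79870], 1328), ([87840, 87840, 63920], 960), ([80246, 80246, 79504], 1152),
   ([90320, 89520, 60160], 1152), ([89760, 89760, 60480], 1152), ([80003, 80003, 79994], 1440),
   ([87600, 85760, 66160], 640), ([90320, 74800, 74800], 2138), ([89520, 89200, 61280], 1152),
   ([80258, 80238, 79504], 1152), ([80005, 80000, 79994], 864), ([80182, 80174, 79642], 768),
   ([90320, 80258, 66160], 1664), ([90240, 85760, 63920], 1152), ([89840, 89840, 60160], 1152),
   ([80182, 80182, 79636], 768), ([80258, 80144, 79598], 1280), ([87600, 86960, 65440], 1536),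
   ([87280, 87280, 65440], 768), ([80190, 80190, 79598], 384), ([90320, 90320], 915)]

theorem cert2_sum : (cert2.map Prod.snd).sum = 45617 := by decide +kernel

theorem cert2_fit : ∀ p ∈ cert2, p.1.sum ≤ 240000 := by decide +kernel

theorem cert2_cov : ∀ x ∈ flat lev2T,
    2304 * (flat lev2T).count x ≤ (cert2.map (fun p => p.1.count x * p.2)).sum := by
  decide +kernel

theorem lev2_pos : ∀ x ∈ flat lev2T, 0 < x := by decide +kernel

theorem lev2_le : ∀ x ∈ flat lev2T, x ≤ 240000 := by decide +kernel

theorem lev2_LP : LP (inst 240000 (flat lev2T)) ≤ (45617 : ℝ) / 2304 := by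
  have h := LP_le_of_cert (L := 240000) (by norm_num) (flat lev2T) cert2 (D := 2304) (by norm_num)
    cert2_fit cert2_cov
  rw [cert2_sum] at h
  exact_mod_cast h

theorem lev2_OPT : 21 ≤ OPT (inst 240000 (flat lev2T)) :=
  le_OPT (K := 20) (inst_le_one (by norm_num) lev2_le)
    (not_packable_inst (by norm_num) (by rw [coe_flat]; exact lev2_not_packable))

end Vale.Agent.Lib.P302.helper74
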