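import Vale.Agent.Lib.P302.helper74.Oracle

/-!
The core and the first nesting level of the instance: refutations of triple matchings, checked
by kernel evaluation.  Capacity `240000`, an item of offset `x` has length `80000 + x`.
-/

namespace Vale.Agent.Lib.P302.helper74

open Vale.Agent.Lib.P302.helper49

/-- The core: offsets `-8, -6, -2, 0, 0, 3, 3, 4, 5`. -/
def coreT : List (ℕ × ℕ) :=
  [(80005, 1), (80004, 1), (80003, 2), (80000, 2), (79998, 1), (79994, 1), (79992, 1)]

theorem core_no : ¬ TripleMatch 240000 (items coreT) 3 :=
  not_tripleMatch_of_checkT (ws := []) (orc := []) (fuel := 20)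
    (fun _ h => absurd h List.not_mem_nil) (by decide +kernel)

/-- The first level: `33` items. -/
def lev1T : List (ℕ × ℕ) :=
  [(80258, 1), (80256, 1), (80246, 1), (80244, 1), (80238, 1), (80234, 1), (80230, 1), (80196, 1), (80190, 1), (80182, 1), (80178, 1), (80174, 1), (80144, 1), (80005, 3), (80004, 1), (80003, 2), (80000, 2), (79998, 1), (79994, 1), (79992, 1), (79870, 2), (79654, 1), (79642, 1), (79636, 1), (79598, 1), (79532, 1), (79512, 1), (79504, 1)]

theorem lev1_no : ¬ TripleMatch 240000 (items lev1T) 11 :=
  not_tripleMatch_of_checkT (ws := []) (orc := [(coreT, 3)]) (fuel := 40)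
    (fun o ho => by
      rw [List.mem_singleton] at ho
      subst ho
      exact core_no) (by decide +kernel)

end Vale.Agent.Lib.P302.helper74
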