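import Vale.Agent.Lib.P302.helper74.Level1

/-!
The second nesting level: `59` items of capacity `240000` that do not contain `19` disjoint
fitting triples, hence cannot be packed into `20` bins.  Checked by kernel evaluation, with the
first level as the oracle.
-/

namespace Vale.Agent.Lib.P302.helper74

open Vale.Agent.Lib.P302.helper49

/-- The second level: `59` items in `49` types. -/
def lev2T : List (ℕ × ℕ) :=
  [(90320, 3), (90240, 1), (89840, 1), (89760, 1), (89520, 1), (89360, 1), (89200, 1), (87840, 1), (87600, 1), (87280, 1), (87120, 1), (86960, 1), (85760, 1), (80258, 3), (80256, 1), (80246, 1), (80244, 1), (80238, 1), (80234, 1), (80230, 1), (80196, 1), (80190, 1), (80182, 1), (80178, 1), (80174, 1), (80144, 1), (80005, 3), (80004, 1), (80003, 2), (80000, 2), (79998, 1), (79994, 1), (79992, 1), (79870, 2), (79654, 1), (79642, 1), (79636, 1), (79598, 1), (79532, 1), (79512, 1), (79504, 1), (74800, 2), (66160, 1), (65680, 1), (65440, 1), (63920, 1), (61280, 1), (60480, 1), (60160, 1)]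

theorem lev2_no : ¬ TripleMatch 240000 (items lev2T) 19 :=
  not_tripleMatch_of_checkT (ws := []) (orc := [(lev1T, 11)]) (fuel := 70)
    (fun o ho => by
      rw [List.mem_singleton] at ho
      subst ho
      exact lev1_no) (by decide +kernel)

theorem lev2_not_packable : ¬ Packable 240000 (items lev2T) 20 :=
  not_packable_of_not_tripleMatch (by decide) lev2_no

end Vale.Agent.Lib.P302.helper74
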